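import Vale.Agent.P310Z.Main

/-!
# P310: the time complexity of deciding Weisfeiler-Leman equivalence, Turing machines and RAMs

Every deterministic Turing machine and every random access machine (unit cost, logarithmic cost,
or word RAM) which decides `≡_k` needs time `n ^ Ω(k)`.
-/

namespace Vale.Agent.Results.P310.ARamTime

open Filter Vale.Agent.P310Z

theorem result :
    (∃ c : ℝ, 0 < c ∧ ∃ k₀ : ℕ, ∀ k : ℕ, k₀ ≤ k → ∀ T : ℕ → ℕ, DecidableInTime k T →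
      ∀ᶠ n : ℕ in atTop, (n : ℝ) ^ (c * k) ≤ (T n : ℝ)) ∧
    ¬ ∃ g : ℕ → ℝ, g =o[atTop] (fun k : ℕ => (k : ℝ)) ∧
      ∀ k : ℕ, 2 ≤ k → ∃ T : ℕ → ℕ, DecidableInTime k T ∧
        (fun n : ℕ => (T n : ℝ)) =O[atTop] (fun n : ℕ => (n : ℝ) ^ g k) :=
  ⟨lowerBound, noSublinear⟩

end Vale.Agent.Results.P310.ARamTime
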